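import Mathlib

/-!
P142: exponentials of logarithmic potentials of the circle are integrable over the disc when every
atom is below two.
-/

open Complex MeasureTheory Metric Filter Topology Set

namespace Vale.Agent.P142.Cauchy

variable {s : ℝ} {θ : ℂ → ℝ} {ν : Measure ℂ}

/-- Powers below two of the reciprocal distance are integrable near their pole, uniformly. -/
theorem integrableOn_dist_rpow (hs : s < 2) {w : ℂ} (hw : ‖w‖ ≤ 1) :
    IntegrableOn (fun z : ℂ => (3 / ‖z - w‖) ^ s) (ball 0 1) ∧
      ∫ z in ball (0 : ℂ) 1, (3 / ‖z - w‖) ^ s ≤ ∫ z in ball (0 : ℂ) 2, (3 / ‖z‖) ^ s := by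
  have h0 : IntegrableOn (fun z : ℂ => (3 / ‖z‖) ^ s) (ball 0 2) := by
    refine integrableOn_ball_of_norm_le_rpow (by simp [Complex.finrank_real_complex])
      (C := (3 : ℝ) ^ s) (α := s) (by simpa [Complex.finrank_real_complex] using hs)
      (ae_of_all _ fun z => ?_)
      (Measurable.aestronglyMeasurable (by fun_prop))
    rw [Real.norm_eq_abs, abs_of_nonneg (Real.rpow_nonneg (by positivity) _),
      Real.div_rpow (by norm_num) (norm_nonneg _), Real.rpow_neg (norm_nonneg _), div_eq_mul_inv]
  have hmp := measurePreserving_sub_right (volume : Measure ℂ) w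
  have hemb : MeasurableEmbedding fun z : ℂ => z - w := measurableEmbedding_subRight w
  have hsub : ball (0 : ℂ) 1 ⊆ (fun z => z - w) ⁻¹' ball 0 2 := fun z hz => by
    simp only [Set.mem_preimage, mem_ball_zero_iff] at hz ⊢
    exact (norm_sub_le _ _).trans_lt (by linarith)
  have h1 : IntegrableOn (fun z : ℂ => (3 / ‖z - w‖) ^ s) ((fun z => z - w) ⁻¹' ball 0 2) :=
    (hmp.integrableOn_comp_preimage hemb).2 h0
  refine ⟨h1.mono_set hsub, le_trans (setIntegral_mono_set h1 (ae_of_all _ fun z =>
    Real.rpow_nonneg (by positivity) _) hsub.eventuallyLE) (le_of_eq ?_)⟩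
  exact hmp.setIntegral_preimage_emb hemb (fun z => (3 / ‖z‖) ^ s) (ball 0 2)

/-- A convexity bound for exponentials of weighted sums. -/
theorem exp_integral_weight_le {A : Set ℂ} (hs : 0 < s) (hθ0 : ∀ w, 0 ≤ θ w)
    (hθ : IntegrableOn θ A ν) (hA : ∫ w in A, θ w ∂ν ≤ s) {k : ℂ → ℝ}
    (hk : IntegrableOn (fun w => θ w * k w) A ν)
    (hek : IntegrableOn (fun w => θ w * Real.exp (s * k w)) A ν) :
    Real.exp (∫ w in A, θ w * k w ∂ν) ≤ 1 + (∫ w in A, θ w * Real.exp (s * k w) ∂ν) / s := by
  set x := ∫ w in A, θ w * k w ∂ν with hx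
  set m := ∫ w in A, θ w ∂ν
  have hpt : ∀ w, θ w * Real.exp x * (1 - x) + Real.exp x * (s * (θ w * k w))
      ≤ θ w * Real.exp (s * k w) := fun w => by
    have h := mul_le_mul_of_nonneg_left (Real.add_one_le_exp (s * k w - x))
      (mul_nonneg (hθ0 w) (Real.exp_pos x).le)
    have e : θ w * Real.exp x * Real.exp (s * k w - x) = θ w * Real.exp (s * k w) := by
      rw [mul_assoc, ← Real.exp_add]
      congr 2
      ring
    rw [e] at h
    linarith
  have i1 : IntegrableOn (fun w => θ w * Real.exp x * (1 - x)) A ν :=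
    (hθ.mul_const (Real.exp x)).mul_const (1 - x)
  have i2 : IntegrableOn (fun w => Real.exp x * (s * (θ w * k w))) A ν :=
    (hk.const_mul s).const_mul (Real.exp x)
  have h1 := integral_mono (i1.fun_add i2) hek hpt
  rw [integral_add i1 i2, integral_mul_const, integral_mul_const, integral_const_mul,
    integral_const_mul, ← hx] at h1
  have h2 : Real.exp x * (1 - x) ≤ 1 := by
    have := mul_le_mul_of_nonneg_left (Real.add_one_le_exp (-x)) (Real.exp_pos x).le
    rw [← Real.exp_add, add_neg_cancel, Real.exp_zero] at this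
    linarith
  have hm : 0 ≤ m := integral_nonneg fun w => hθ0 w
  rw [← sub_le_iff_le_add', le_div_iff₀ hs]
  nlinarith [mul_le_mul_of_nonneg_left h2 (sub_nonneg.2 hA)]

theorem potential_integrable {k : ℂ → ℝ} (hk : Measurable k) (hθ : Integrable θ ν) {B : ℝ}
    (hB : ∀ᵐ w ∂ν, |k w| ≤ B) : Integrable (fun w => θ w * k w) ν :=
  hθ.mul_bdd hk.aestronglyMeasurable (hB.mono fun w hw => by rwa [Real.norm_eq_abs])

/-- Exponentials of logarithmic potentials with atoms below two are integrable over the disc. -/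
theorem potential_area [IsFiniteMeasure ν] (hν : ∀ᵐ w ∂ν, ‖w‖ = 1) (hθ : Integrable θ ν)
    (hθ0 : ∀ w, 0 ≤ θ w) (hatom : ∀ a : ℂ, ‖a‖ = 1 → θ a * ν.real {a} < 2) {F : ℂ → ℝ}
    (hF : AEStronglyMeasurable F (volume.restrict (ball (0 : ℂ) 1)))
    {C : ℝ} (hFb : ∀ z ∈ ball (0 : ℂ) 1,
      ‖F z‖ ≤ C * Real.exp (∫ w, θ w * Real.log (3 / ‖z - w‖) ∂ν)) :
    IntegrableOn F (ball 0 1) := by
  set k := fun z w : ℂ => Real.log (3 / ‖z - w‖)
  have hkm : ∀ z, Measurable (k z) := fun z => by fun_prop
  have hfar : ∀ z w : ℂ, ‖z‖ < 1 → ‖w‖ = 1 → 0 < ‖z - w‖ ∧ ‖z - w‖ ≤ 2 ∧ 1 - ‖z‖ ≤ ‖z - w‖ :=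
    fun z w hz hw => by
      have h1 : 1 - ‖z‖ ≤ ‖z - w‖ := by
        have := norm_sub_norm_le w z
        rw [hw, norm_sub_rev] at this
        exact this
      exact ⟨by linarith, (norm_sub_le _ _).trans (by linarith), h1⟩
  have hC : 0 ≤ C := nonneg_of_mul_nonneg_left
    ((norm_nonneg _).trans (hFb 0 (mem_ball_self one_pos))) (Real.exp_pos _)
  have hkb : ∀ z : ℂ, ‖z‖ < 1 → ∀ᵐ w ∂ν, 0 ≤ k z w ∧ |k z w| ≤ Real.log (3 / (1 - ‖z‖)) :=
    fun z hz => hν.mono fun w hw => by
      obtain ⟨h0, h2, h1⟩ := hfar z w hz hw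
      have hpos : 0 ≤ k z w := Real.log_nonneg (by rw [le_div_iff₀ h0]; linarith)
      refine ⟨hpos, ?_⟩
      rw [abs_of_nonneg hpos]
      exact Real.log_le_log (by positivity)
        (div_le_div_of_nonneg_left (by norm_num) (by linarith) h1)
  have hfin : IsFiniteMeasure (volume.restrict (ball (0 : ℂ) 1)) :=
    ⟨by rw [Measure.restrict_apply_univ]; exact measure_ball_lt_top⟩
  have key : ∀ p ∈ closedBall (0 : ℂ) 1, ∃ r > 0, IntegrableOn F (ball p r ∩ ball 0 1) := by
    intro p hp
    -- a neighbourhood of small weight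
    have hA : ∃ η > 0, ∫ w in closedBall p η, θ w ∂ν < 2 := by
      have hlim := tendsto_setIntegral_of_antitone (μ := ν) (f := θ)
        (s := fun i : ℕ => closedBall p (1 / ((i : ℝ) + 1))) (fun i => measurableSet_closedBall)
        (fun i j hij => closedBall_subset_closedBall (one_div_le_one_div_of_le (by positivity)
          (by exact_mod_cast Nat.add_le_add_right hij 1)))
        ⟨0, hθ.integrableOn⟩
      have e : ⋂ i : ℕ, closedBall p (1 / ((i : ℝ) + 1)) = {p} := by
        refine Subset.antisymm (fun x hx => ?_) fun x hx => mem_iInter.2 fun i => ?_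
        · by_contra hne
          obtain ⟨i, hi⟩ := exists_nat_one_div_lt (dist_pos.2 hne)
          exact not_lt.2 (mem_closedBall.1 (mem_iInter.1 hx i)) hi
        · rw [Set.mem_singleton_iff.1 hx]
          exact mem_closedBall_self (by positivity)
      rw [e, integral_singleton, smul_eq_mul] at hlim
      have h2 : ν.real {p} * θ p < 2 := by
        by_cases hp1 : ‖p‖ = 1
        · rw [mul_comm]
          exact hatom p hp1
        · have h0 : ν {p} = 0 := measure_mono_null
            (fun w hwp hw => hp1 (Set.mem_singleton_iff.1 hwp ▸ hw)) (ae_iff.1 hν)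
          simp [measureReal_def, h0]
      obtain ⟨i, hi⟩ := (hlim.eventually_lt_const h2).exists
      exact ⟨_, by positivity, hi⟩
    obtain ⟨η, hη, hsmall⟩ := hA
    set A := closedBall p η
    obtain ⟨s, hs1, hs2⟩ := exists_between (max_lt hsmall two_pos)
    have hs0 : 0 < s := (le_max_right _ _).trans_lt hs1
    refine ⟨η / 2, by positivity, ?_⟩
    set L := Real.log (3 / (η / 2))
    set Q := fun q : ℂ × ℂ => θ q.2 * (3 / ‖q.1 - q.2‖) ^ s
    have hQi : Integrable Q ((volume.restrict (ball (0 : ℂ) 1)).prod (ν.restrict A)) := by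
      have hQm : AEStronglyMeasurable Q
          ((volume.restrict (ball (0 : ℂ) 1)).prod (ν.restrict A)) :=
        hθ.integrableOn.aestronglyMeasurable.comp_snd.mul
          (Measurable.aestronglyMeasurable (by fun_prop))
      refine (integrable_prod_iff' hQm).2 ⟨?_, ?_⟩
      · filter_upwards [ae_restrict_of_ae hν] with w hw
        exact ((integrableOn_dist_rpow hs2 hw.le).1).const_mul (θ w)
      · refine (hθ.integrableOn.mul_const (∫ z in ball (0 : ℂ) 2, (3 / ‖z‖) ^ s)).mono'
          hQm.norm.prod_swap.integral_prod_right' ?_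
        filter_upwards [ae_restrict_of_ae hν] with w hw
        rw [Real.norm_eq_abs, abs_of_nonneg (integral_nonneg fun z => norm_nonneg _)]
        simp only [Q, norm_mul, Real.norm_eq_abs, abs_of_nonneg (hθ0 w),
          abs_of_nonneg (Real.rpow_nonneg (by positivity : (0 : ℝ) ≤ 3 / ‖_ - w‖) s)]
        rw [integral_const_mul]
        exact mul_le_mul_of_nonneg_left (integrableOn_dist_rpow hs2 hw.le).2 (hθ0 w)
    set G := fun z => C * Real.exp (|L| * ∫ w, θ w ∂ν) * (1 + (∫ w in A, Q (z, w) ∂ν) / s)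
    have hGi : IntegrableOn G (ball (0 : ℂ) 1) :=
      ((integrable_const 1).add (hQi.integral_prod_left.div_const s)).const_mul _
    refine (hGi.mono_set inter_subset_right).mono'
      (hF.mono_measure (Measure.restrict_mono_set _ inter_subset_right)) ?_
    refine (ae_restrict_mem (measurableSet_ball.inter measurableSet_ball)).mono ?_
    rintro z ⟨hzp, hz⟩
    have hz1 := mem_ball_zero_iff.1 hz
    refine (hFb z hz).trans ?_
    simp only [G]
    rw [mul_assoc C]
    refine mul_le_mul_of_nonneg_left ?_ hC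
    have hint : Integrable (fun w => θ w * k z w) ν :=
      potential_integrable (hkm z) hθ ((hkb z hz1).mono fun w h => h.2)
    have hexp : IntegrableOn (fun w => θ w * Real.exp (s * k z w)) A ν :=
      (potential_integrable (by fun_prop) hθ (B := Real.exp (s * Real.log (3 / (1 - ‖z‖))))
        ((hkb z hz1).mono fun w h => by
          rw [abs_of_pos (Real.exp_pos _)]
          exact Real.exp_le_exp.2
            (mul_le_mul_of_nonneg_left ((le_abs_self _).trans h.2) hs0.le))).integrableOn
    rw [← integral_add_compl (measurableSet_closedBall (x := p) (ε := η)) hint, Real.exp_add,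
      mul_comm]
    refine mul_le_mul ?_ ?_ (Real.exp_pos _).le (Real.exp_pos _).le
    · refine Real.exp_le_exp.2 ?_
      rw [← integral_const_mul]
      refine (setIntegral_mono_on_ae hint.integrableOn (hθ.const_mul |L|).integrableOn
        measurableSet_closedBall.compl ?_).trans (setIntegral_le_integral (hθ.const_mul |L|)
          (ae_of_all _ fun w => mul_nonneg (abs_nonneg _) (hθ0 w)))
      filter_upwards [hν] with w hw hwA
      rw [mul_comm |L|]
      refine mul_le_mul_of_nonneg_left (le_trans ?_ (le_abs_self L)) (hθ0 w)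
      obtain ⟨h0, -, -⟩ := hfar z w hz1 hw
      refine Real.log_le_log (by positivity) (div_le_div_of_nonneg_left (by norm_num)
        (half_pos hη) ?_)
      have h1 : η < dist w p := not_le.1 fun h => hwA (mem_closedBall.2 h)
      have h2 := dist_triangle w z p
      rw [dist_comm w z, dist_eq_norm z w] at h2
      linarith [mem_ball.1 hzp]
    · refine (exp_integral_weight_le hs0 hθ0 hθ.integrableOn ((le_max_left _ _).trans hs1.le)
        hint.integrableOn hexp).trans (le_of_eq ?_)
      congr 2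
      refine setIntegral_congr_ae measurableSet_closedBall (hν.mono fun w hw _ => ?_)
      obtain ⟨h0, -, -⟩ := hfar z w hz1 hw
      simp only [Q, k]
      rw [Real.rpow_def_of_pos (div_pos three_pos h0), mul_comm s]
  choose! r hr0 hr using key
  obtain ⟨T, hTsub, hT⟩ := (isCompact_closedBall (0 : ℂ) 1).elim_nhds_subcover
    (fun p => ball p (r p)) fun p hp => ball_mem_nhds p (hr0 p hp)
  refine IntegrableOn.mono_set (t := ⋃ p ∈ T, ball p (r p) ∩ ball 0 1)
    (integrableOn_finset_iUnion.2 fun p hp => hr p (hTsub p hp)) fun z hz => ?_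
  obtain ⟨p, hp, hzp⟩ := mem_iUnion₂.1 (hT (ball_subset_closedBall hz))
  exact mem_iUnion₂.2 ⟨p, hp, hzp, hz⟩

end Vale.Agent.P142.Cauchy
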