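import Vale.Agent.P142.Cauchy.Kernel

/-!
P142: injectivity of the map bounds the atoms of the measure, by blowing up at the atom.
-/

open Complex MeasureTheory Metric Filter Topology Set
open scoped ComplexConjugate

namespace Vale.Agent.P142.Cauchy

/-- A holomorphic function on a ball whose derivatives are bounded and tend to zero at every point
of the ball, and which vanishes at the origin, tends to zero uniformly on compact parts. -/
theorem small_of_deriv {R M : ℝ} {E P : ℕ → ℂ → ℂ}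
    (hE : ∀ n, ∀ z ∈ ball (0 : ℂ) 1, HasDerivAt (E n) (P n z) z) (h0 : ∀ n, E n 0 = 0)
    (hR : R < 1) (hM : ∀ n, ∀ z ∈ closedBall (0 : ℂ) R, ‖P n z‖ ≤ M)
    (hP : ∀ z ∈ closedBall (0 : ℂ) R, Tendsto (fun n => P n z) atTop (𝓝 0)) {ε : ℝ}
    (hε : 0 < ε) : ∀ᶠ n in atTop, ∀ z ∈ closedBall (0 : ℂ) R, ‖E n z‖ ≤ ε := by
  rcases lt_or_ge R 0 with hR0 | hR0
  · exact Eventually.of_forall fun n z hz => by
      have := (mem_closedBall.1 hz).trans_lt hR0
      exact absurd this (not_lt.2 dist_nonneg)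
  have hsub : closedBall (0 : ℂ) R ⊆ ball 0 1 := closedBall_subset_ball hR
  have hM0 : 0 ≤ M := (norm_nonneg _).trans (hM 0 0 (mem_closedBall_self hR0))
  have hdiff : ∀ n, DifferentiableOn ℂ (E n) (ball 0 1) := fun n z hz =>
    (hE n z hz).differentiableAt.differentiableWithinAt
  have hcont : ∀ n, ContinuousOn (P n) (ball 0 1) := fun n =>
    (((hdiff n).analyticOnNhd isOpen_ball).deriv.continuousOn).congr fun z hz => (hE n z hz).deriv.symm
  have hpt : ∀ z ∈ closedBall (0 : ℂ) R, Tendsto (fun n => E n z) atTop (𝓝 0) := fun z hz => by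
    have hseg : ∀ s ∈ Icc (0 : ℝ) 1, (s : ℂ) * z ∈ closedBall (0 : ℂ) R := fun s hs => by
      rw [mem_closedBall, dist_zero_right, norm_mul, norm_real, Real.norm_of_nonneg hs.1]
      exact (mul_le_of_le_one_left (norm_nonneg _) hs.2).trans
        (by simpa [dist_zero_right] using hz)
    have hcd : ∀ n, ContinuousOn (fun s : ℝ => z * P n ((s : ℂ) * z)) (uIcc 0 1) := fun n => by
      rw [uIcc_of_le zero_le_one]
      exact continuousOn_const.mul ((hcont n).comp (by fun_prop) fun s hs => hsub (hseg s hs))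
    have e : ∀ n, E n z = ∫ s in (0 : ℝ)..1, z * P n ((s : ℂ) * z) := fun n => by
      rw [intervalIntegral.integral_eq_sub_of_hasDerivAt (f := fun s : ℝ => E n ((s : ℂ) * z)) ?_
        (hcd n).intervalIntegrable]
      · simp [h0]
      intro s hs
      rw [uIcc_of_le zero_le_one] at hs
      have h1 : HasDerivAt (fun s : ℝ => (s : ℂ) * z) z s := by
        simpa using (hasDerivAt_id s).ofReal_comp.mul_const z
      exact ((hE n _ (hsub (hseg s hs))).comp s h1).congr_deriv (mul_comm _ _)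
    simp only [e]
    have hlim := intervalIntegral.tendsto_integral_filter_of_dominated_convergence
      (μ := volume) (a := (0 : ℝ)) (b := 1) (l := atTop)
      (F := fun n s => z * P n ((s : ℂ) * z)) (f := fun _ => (0 : ℂ)) (fun _ => ‖z‖ * M)
      (Eventually.of_forall fun n => ((hcd n).mono uIoc_subset_uIcc).aestronglyMeasurable
        measurableSet_uIoc)
      (Eventually.of_forall fun n => ae_of_all _ fun s hs => by
        rw [uIoc_of_le zero_le_one] at hs
        rw [norm_mul]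
        exact mul_le_mul_of_nonneg_left (hM n _ (hseg s ⟨hs.1.le, hs.2⟩)) (norm_nonneg _))
      intervalIntegrable_const (ae_of_all _ fun s hs => by
        rw [uIoc_of_le zero_le_one] at hs
        simpa using (hP _ (hseg s ⟨hs.1.le, hs.2⟩)).const_mul z)
    simpa using hlim
  have hlip : ∀ n, ∀ u ∈ closedBall (0 : ℂ) R, ∀ v ∈ closedBall (0 : ℂ) R,
      ‖E n v - E n u‖ ≤ M * ‖v - u‖ := fun n u hu v hv =>
    (convex_closedBall (0 : ℂ) R).norm_image_sub_le_of_norm_hasDerivWithin_le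
      (fun x hx => (hE n x (hsub hx)).hasDerivWithinAt) (hM n) hu hv
  set δ := ε / (2 * (M + 1)) with hδ
  have hδ0 : 0 < δ := by positivity
  obtain ⟨T, hTs, hTf, hcov⟩ :=
    finite_cover_balls_of_compact (isCompact_closedBall (0 : ℂ) R) hδ0
  filter_upwards [(eventually_all_finite hTf).2 fun u hu =>
    (tendsto_zero_iff_norm_tendsto_zero.1 (hpt u (hTs hu))).eventually_le_const (half_pos hε)]
    with n hn z hz
  obtain ⟨u, hu, hzu⟩ := mem_iUnion₂.1 (hcov hz)
  have h1 := (hlip n u (hTs hu) z hz).trans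
    (mul_le_mul_of_nonneg_left (mem_ball_iff_norm.1 hzu).le hM0)
  have h2 : M * δ ≤ ε / 2 := by
    rw [hδ, mul_div_assoc', div_le_iff₀ (by positivity)]
    nlinarith
  have := norm_sub_norm_le (E n z) (E n u)
  linarith [hn u hu]

/-- The quotient at the end of the blow-up. -/
noncomputable def cay (z : ℂ) : ℂ := (1 - z) / (1 + z)

theorem one_add_re_pos {z : ℂ} (hz : ‖z‖ < 1) : 0 < (1 + z).re := by
  have := neg_le_of_abs_le (abs_re_le_norm z)
  rw [add_re, one_re]
  linarith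

theorem cay_re_pos {z : ℂ} (hz : ‖z‖ < 1) : 0 < (cay z).re := by
  have hd := ne_zero_of_re_pos (one_add_re_pos hz)
  have h2 : ‖z‖ ^ 2 < 1 := by nlinarith [norm_nonneg z]
  rw [Complex.sq_norm, normSq_apply] at h2
  rw [cay, Complex.div_re, ← add_div]
  refine div_pos ?_ (normSq_pos.2 hd)
  simp only [sub_re, sub_im, one_re, one_im, add_re, add_im]
  nlinarith

theorem hasDerivAt_log_cay {z : ℂ} (hz : ‖z‖ < 1) :
    HasDerivAt (fun z => log (cay z)) (-2 / ((1 - z) * (1 + z))) z := by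
  have hd := ne_zero_of_re_pos (one_add_re_pos hz)
  have hn : (1 : ℂ) - z ≠ 0 := fun h => by
    rw [sub_eq_zero] at h
    simp [← h] at hz
  have h1 := (((hasDerivAt_id z).const_sub 1).div ((hasDerivAt_id z).const_add 1) hd).clog
    (slit_of_re_pos (cay_re_pos hz))
  refine h1.congr_deriv ?_
  simp only [id_eq, Pi.div_apply]
  field_simp
  ring

/-- Points which the power with exponent `b` of the right half plane sends to the same value. -/
theorem exists_pair {b : ℂ} (hb : 2 * |b.re| < ‖b‖ ^ 2) :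
    ∃ z₁ z₂ : ℂ, ‖z₁‖ < 1 ∧ ‖z₂‖ < 1 ∧ z₁ ≠ z₂ ∧
      exp (b * log (cay z₁)) = -1 ∧ exp (b * log (cay z₂)) = -1 := by
  have hb0 : b ≠ 0 := fun h => by simp [h] at hb
  set S := (Real.pi : ℂ) * I / b with hS
  have hn : 0 < normSq b := normSq_pos.2 hb0
  have him : |S.im| < Real.pi / 2 := by
    rw [hS, Complex.div_im]
    simp only [mul_re, mul_im, ofReal_re, ofReal_im, I_re, I_im, mul_zero, zero_mul, mul_one,
      sub_zero, add_zero, zero_div]
    rw [abs_div, abs_mul, abs_of_pos Real.pi_pos, abs_of_pos hn, div_lt_iff₀ hn]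
    rw [← Complex.normSq_eq_norm_sq] at hb
    nlinarith [Real.pi_pos, mul_lt_mul_of_pos_left hb Real.pi_pos]
  have hS0 : S ≠ 0 := by
    rw [hS]
    exact div_ne_zero (mul_ne_zero (ofReal_ne_zero.2 Real.pi_ne_zero) I_ne_zero) hb0
  have key : ∀ T : ℂ, |T.im| < Real.pi / 2 →
      ∃ z : ℂ, ‖z‖ < 1 ∧ log (cay z) = T := fun T hT => by
    have hre : 0 < (exp T).re := by
      rw [exp_re]
      exact mul_pos (Real.exp_pos _) (Real.cos_pos_of_mem_Ioo (abs_lt.1 hT))
    have hd : (1 + exp T) ≠ 0 := ne_zero_of_re_pos (by rw [add_re, one_re]; linarith)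
    refine ⟨(1 - exp T) / (1 + exp T), ?_, ?_⟩
    · rw [norm_div, div_lt_one (norm_pos_iff.2 hd)]
      refine (pow_lt_pow_iff_left₀ (norm_nonneg _) (norm_nonneg _) two_ne_zero).1 ?_
      simp only [Complex.sq_norm, normSq_apply, sub_re, sub_im, add_re, add_im, one_re, one_im]
      nlinarith
    · have e : cay ((1 - exp T) / (1 + exp T)) = exp T := by
        have h1 : 1 + (1 - exp T) / (1 + exp T) = 2 / (1 + exp T) := by
          field_simp
          ring
        have h2 : 1 - (1 - exp T) / (1 + exp T) = 2 * exp T / (1 + exp T) := by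
          field_simp
          ring
        rw [cay, h1, h2, div_div_div_cancel_right₀ hd]
        field_simp
      rw [e]
      refine log_exp ?_ ?_ <;> linarith [abs_lt.1 hT, Real.pi_pos]
  obtain ⟨z₁, hz₁, h₁⟩ := key S him
  obtain ⟨z₂, hz₂, h₂⟩ := key (-S) (by rwa [neg_im, abs_neg])
  refine ⟨z₁, z₂, hz₁, hz₂, fun h => hS0 ?_, ?_, ?_⟩
  · have h3 : S = -S := by
      have := h₁
      rw [h, h₂] at this
      exact this.symm
    linear_combination h3 / 2
  · rw [h₁, hS, mul_div_cancel₀ _ hb0, exp_pi_mul_I]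
  · rw [h₂, mul_neg, hS, mul_div_cancel₀ _ hb0, exp_neg, exp_pi_mul_I, inv_neg, inv_one]

variable {f g : ℂ → ℂ} {ν : Measure ℂ} {ρ : ℂ → ℂ} {a : ℂ} {r R : ℝ}

/-- The derivative of the blown up map. -/
noncomputable def blowDeriv (g : ℂ → ℂ) (ν : Measure ℂ) (ρ : ℂ → ℂ) (a : ℂ) (r : ℝ) (z : ℂ) : ℂ :=
  exp (g (disk a r z) - g (disk a r 0)
    + ∫ w, ρ w * (log (1 - disk a r z * conj w) - log (1 - disk a r 0 * conj w)) ∂ν)
      / (1 + (r : ℂ) * z) ^ 2

/-- The blown up map has the stated derivative. -/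
theorem hasDerivAt_blow (hf : DifferentiableOn ℂ f (ball 0 1)) (hν : ∀ᵐ w ∂ν, ‖w‖ = 1)
    (hρ : Integrable ρ ν)
    (hf' : ∀ z ∈ ball (0 : ℂ) 1,
      deriv f z = exp (g z + ∫ w, ρ w * log (1 - z * conj w) ∂ν))
    (ha : ‖a‖ = 1) (hr : 0 ≤ r) (hr1 : r < 1) {D : ℂ}
    (hD : D = deriv f (disk a r 0) * (a * (1 - (r : ℂ) ^ 2))) {z : ℂ} (hz : ‖z‖ < 1) :
    D ≠ 0 ∧
      HasDerivAt (fun z => (f (disk a r z) - f (disk a r 0)) / D) (blowDeriv g ν ρ a r z) z := by
  have hm : ∀ u : ℂ, ‖u‖ < 1 → disk a r u ∈ ball (0 : ℂ) 1 := fun u hu =>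
    mem_ball_zero_iff.2 (disk_mem ha hr hr1 hu)
  have h00 : ‖(0 : ℂ)‖ < 1 := by simp
  have ha0 : a ≠ 0 := fun h => by simp [h] at ha
  have hr2 : (1 : ℂ) - (r : ℂ) ^ 2 ≠ 0 := by
    rw [← ofReal_pow, ← ofReal_one, ← ofReal_sub, ofReal_ne_zero]
    nlinarith
  have hf0 : deriv f (disk a r 0) ≠ 0 := by
    rw [hf' _ (hm 0 h00)]
    exact exp_ne_zero _
  refine ⟨by simp [hD, hf0, ha0, hr2], ?_⟩
  have hd := hasDerivAt_disk a hr hr1 hz
  have hden := ne_zero_of_re_pos (den_re_pos hr hr1 hz)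
  have hfd := ((hf _ (hm z hz)).differentiableAt (isOpen_ball.mem_nhds (hm z hz))).hasDerivAt
  refine (((hfd.comp z hd).sub_const (f (disk a r 0))).div_const D).congr_deriv ?_
  have e : exp (g (disk a r z) - g (disk a r 0)
      + ∫ w, ρ w * (log (1 - disk a r z * conj w) - log (1 - disk a r 0 * conj w)) ∂ν)
      = deriv f (disk a r z) / deriv f (disk a r 0) := by
    rw [hf' _ (hm z hz), hf' _ (hm 0 h00), ← exp_sub]
    simp only [mul_sub]
    rw [integral_sub (integrable_kernel hν hρ (mem_ball_zero_iff.1 (hm z hz)))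
      (integrable_kernel hν hρ (mem_ball_zero_iff.1 (hm 0 h00)))]
    congr 1
    ring
  rw [blowDeriv, e, hD]
  field_simp

theorem norm_blowDeriv_le [IsFiniteMeasure ν] (hν : ∀ᵐ w ∂ν, ‖w‖ = 1) (hρ : Integrable ρ ν)
    {G : ℝ} (hG : ∀ z ∈ closedBall (0 : ℂ) 1, ‖g z‖ ≤ G) (ha : ‖a‖ = 1) (hr : 0 ≤ r) (hr1 : r < 1)
    (hR : R < 1) {z : ℂ} (hz : ‖z‖ ≤ R) :
    ‖blowDeriv g ν ρ a r z‖ ≤
      Real.exp (2 * G + (Real.log ((1 + R) / (1 - R)) + Real.pi) * ∫ w, ‖ρ w‖ ∂ν)
        / (1 - R) ^ 2 := by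
  have hz' := hz.trans_lt hR
  have hm : ∀ u : ℂ, ‖u‖ < 1 → disk a r u ∈ closedBall (0 : ℂ) 1 := fun u hu =>
    ball_subset_closedBall (mem_ball_zero_iff.2 (disk_mem ha hr hr1 hu))
  rw [blowDeriv, norm_div, norm_exp, norm_pow]
  refine div_le_div₀ (Real.exp_pos _).le (Real.exp_le_exp.2 ?_)
    (by nlinarith) (pow_le_pow_left₀ (by linarith) ?_ 2)
  · refine (re_le_norm _).trans ((norm_add_le _ _).trans (add_le_add ?_ ?_))
    · refine (norm_sub_le _ _).trans ?_
      linarith [hG _ (hm z hz'), hG _ (hm 0 (by simp))]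
    · rw [← integral_const_mul]
      refine norm_integral_le_of_norm_le (hρ.norm.const_mul _) ?_
      filter_upwards [hν] with w hw
      rw [norm_mul, mul_comm (Real.log _ + _)]
      exact mul_le_mul_of_nonneg_left (norm_log_disk ha hw hr hr1 hR hz) (norm_nonneg _)
  · have := norm_le_norm_add_norm_sub' (1 : ℂ) (1 + (r : ℂ) * z)
    rw [norm_one, show (1 : ℂ) - (1 + (r : ℂ) * z) = -((r : ℂ) * z) by ring, norm_neg,
      norm_mul, norm_real, Real.norm_of_nonneg hr] at this
    nlinarith [norm_nonneg z]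

theorem tendsto_blowDeriv [IsFiniteMeasure ν] (hν : ∀ᵐ w ∂ν, ‖w‖ = 1) (hρ : Integrable ρ ν)
    (hg : ContinuousOn g (closedBall 0 1)) (ha : ‖a‖ = 1) {rr : ℕ → ℝ} (hr0 : ∀ n, 0 ≤ rr n)
    (hr1 : ∀ n, rr n < 1) (hrlim : Tendsto rr atTop (𝓝 1)) {z : ℂ} (hz' : ‖z‖ < 1) :
    Tendsto (fun n => blowDeriv g ν ρ a (rr n) z) atTop
      (𝓝 (exp (((ν.real {a} : ℂ) * ρ a) * log (cay z)) / (1 + z) ^ 2)) := by
  set c := (ν.real {a} : ℂ) * ρ a with hc
  set φ : ℕ → ℂ → ℂ := fun n => disk a (rr n) with hφ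
  have hφmem : ∀ n z, ‖z‖ < 1 → φ n z ∈ ball (0 : ℂ) 1 := fun n z hz =>
    mem_ball_zero_iff.2 (disk_mem ha (hr0 n) (hr1 n) hz)
  have h00 : ‖(0 : ℂ)‖ < 1 := by simp
  set M := Real.log ((1 + ‖z‖) / (1 - ‖z‖)) + Real.pi
  have hd := ne_zero_of_re_pos (one_add_re_pos hz')
  have hrC : Tendsto (fun n => (rr n : ℂ)) atTop (𝓝 1) :=
    ((continuous_ofReal.tendsto 1).comp hrlim).trans (by simp)
  have hφlim : ∀ u : ℂ, ‖u‖ < 1 → Tendsto (fun n => φ n u) atTop (𝓝 a) := fun u hu => by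
    have hu0 := ne_zero_of_re_pos (one_add_re_pos hu)
    have h1 := ((hrC.const_add u).const_mul a).div ((hrC.mul_const u).const_add 1)
      (by simpa using hu0)
    rw [one_mul, mul_div_assoc, add_comm u, div_self hu0, mul_one] at h1
    exact h1
  have hglim : ∀ u : ℂ, ‖u‖ < 1 → Tendsto (fun n => g (φ n u)) atTop (𝓝 (g a)) := fun u hu =>
    (hg a (mem_closedBall_zero_iff.2 ha.le)).tendsto.comp (tendsto_nhdsWithin_iff.2
      ⟨hφlim u hu, Eventually.of_forall fun n => ball_subset_closedBall (hφmem n u hu)⟩)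
  have hJlim : Tendsto (fun n => ∫ w,
      ρ w * (log (1 - φ n z * conj w) - log (1 - φ n 0 * conj w)) ∂ν) atTop (𝓝 (c * log (cay z))) := by
    have e : ∫ w, Set.indicator {a} (fun w => ρ w * log (cay z)) w ∂ν = c * log (cay z) := by
      rw [integral_indicator (measurableSet_singleton a), integral_singleton, hc, real_smul,
        mul_assoc]
    rw [← e]
    have hmm : ∀ u : ℂ, Measurable fun w : ℂ => log (1 - u * conj w) := fun u =>
      measurable_log.comp (Continuous.measurable (by fun_prop))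
    refine tendsto_integral_of_dominated_convergence
      (F := fun n w => ρ w * (log (1 - φ n z * conj w) - log (1 - φ n 0 * conj w)))
      (fun w => M * ‖ρ w‖)
      (fun n => hρ.aestronglyMeasurable.mul
        ((hmm (φ n z)).sub (hmm (φ n 0))).aestronglyMeasurable)
      (hρ.norm.const_mul M) (fun n => ?_) ?_
    · filter_upwards [hν] with w hw
      rw [norm_mul, mul_comm M]
      exact mul_le_mul_of_nonneg_left (norm_log_disk ha hw (hr0 n) (hr1 n) hz' le_rfl) (norm_nonneg _)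
    filter_upwards [hν] with w hw
    by_cases hwa : w = a
    · rw [hwa, Set.indicator_of_mem (Set.mem_singleton a)]
      have hq : Tendsto (fun n => log ((1 - z) / (1 + (rr n : ℂ) * z))) atTop
          (𝓝 (log (cay z))) := by
        have h1 : Tendsto (fun n => 1 + (rr n : ℂ) * z) atTop (𝓝 (1 + z)) := by
          simpa using (hrC.mul_const z).const_add 1
        have h2 : Tendsto (fun n => (1 - z) / (1 + (rr n : ℂ) * z)) atTop (𝓝 (cay z)) :=
          (tendsto_const_nhds (f := (atTop : Filter ℕ)) (x := (1 : ℂ) - z)).div h1 hd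
        exact h2.clog (slit_of_re_pos (cay_re_pos hz'))
      refine (hq.congr fun n => ?_).const_mul (ρ a)
      have hden : (1 + (rr n : ℂ) * z) ≠ 0 :=
        ne_zero_of_re_pos (den_re_pos (hr0 n) (hr1 n) hz')
      have hnz : (1 : ℂ) - z ≠ 0 := fun h => by
        rw [sub_eq_zero] at h
        simp [← h] at hz'
      have ex : 1 - φ n z * conj a
          = ((1 - rr n : ℝ) : ℂ) * ((1 - z) / (1 + (rr n : ℂ) * z)) := by
        simp only [hφ, disk]
        rw [div_mul_eq_mul_div, sub_div' hden, mul_div_assoc', div_left_inj' hden]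
        push_cast
        linear_combination (-(z + (rr n : ℂ))) * mul_conj_one ha
      have ey : 1 - φ n 0 * conj a = ((1 - rr n : ℝ) : ℂ) := by
        simp only [hφ, disk_zero]
        push_cast
        linear_combination (-(rr n : ℂ)) * mul_conj_one ha
      have hs : (0 : ℝ) < 1 - rr n := by linarith [hr1 n]
      rw [ex, ey, log_ofReal_mul hs (div_ne_zero hnz hden), ← ofReal_log hs.le]
      ring
    · rw [Set.indicator_of_notMem (by simpa using hwa)]
      have hslit : 1 - a * conj w ∈ slitPlane := by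
        refine slit_of_re_pos (lt_of_le_of_ne ?_ fun h => ?_)
        · have := re_le_norm (a * conj w)
          rw [norm_mul, Complex.norm_conj, hw, ha, mul_one] at this
          rw [sub_re, one_re]
          linarith
        · have hsq : ‖a * conj w‖ = 1 := by rw [norm_mul, Complex.norm_conj, hw, ha, mul_one]
          have hre : (a * conj w).re = 1 := by
            rw [sub_re, one_re] at h
            linarith
          have hi : (a * conj w).im = 0 := by
            have := Complex.sq_norm (a * conj w)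
            rw [hsq, normSq_apply, hre] at this
            nlinarith
          have h1 : a * conj w = 1 := Complex.ext (by simpa using hre) (by simpa using hi)
          exact hwa (by linear_combination a * mul_conj_one hw - w * h1)
      have hl : ∀ u : ℂ, ‖u‖ < 1 → Tendsto (fun n => log (1 - φ n u * conj w)) atTop
          (𝓝 (log (1 - a * conj w))) := fun u hu =>
        (((hφlim u hu).mul_const (conj w)).const_sub 1).clog hslit
      simpa using ((hl z hz').sub (hl 0 h00)).const_mul (ρ w)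
  have h1 := (((hglim z hz').sub (hglim 0 h00)).add hJlim).cexp.div
    (((hrC.mul_const z).const_add 1).pow 2) (by simpa using hd)
  rw [sub_self, zero_add, one_mul] at h1
  exact h1

/-- Injectivity bounds the real part of every atom. -/
theorem atom_bound [IsFiniteMeasure ν] (hf : DifferentiableOn ℂ f (ball 0 1))
    (hinj : InjOn f (ball 0 1))
    (hν : ∀ᵐ w ∂ν, ‖w‖ = 1) (hρ : Integrable ρ ν) (hg : ContinuousOn g (closedBall 0 1))
    (hf' : ∀ z ∈ ball (0 : ℂ) 1,
      deriv f z = exp (g z + ∫ w, ρ w * log (1 - z * conj w) ∂ν))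
    (ha : ‖a‖ = 1) : ((ν.real {a} : ℂ) * ρ a).re ∈ Icc (-3 : ℝ) 1 := by
  set c := (ν.real {a} : ℂ) * ρ a with hc
  by_contra hmem
  set b := c + 1 with hb
  have hbre : 2 < |b.re| := by
    rw [hb, add_re, one_re]
    rw [Set.mem_Icc, not_and_or, not_le, not_le] at hmem
    rcases hmem with h | h
    · rw [abs_of_neg (by linarith)]; linarith
    · rw [abs_of_pos (by linarith)]; linarith
  have hb2 : 2 * |b.re| < ‖b‖ ^ 2 := by
    nlinarith [Complex.abs_re_le_norm b]
  have hb0 : b ≠ 0 := fun h => by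
    rw [h, Complex.zero_re, abs_zero] at hbre
    linarith
  obtain ⟨z₁, z₂, hz₁, hz₂, hne, he₁, he₂⟩ := exists_pair hb2
  -- the limit map and its derivative
  set H : ℂ → ℂ := fun z => -(exp (b * log (cay z)) - 1) / (2 * b) with hH
  set H' : ℂ → ℂ := fun z => exp (c * log (cay z)) / (1 + z) ^ 2 with hH'
  have hHd : ∀ z : ℂ, ‖z‖ < 1 → HasDerivAt H (H' z) z := fun z hz => by
    have hd := ne_zero_of_re_pos (one_add_re_pos hz)
    have hn : (1 : ℂ) - z ≠ 0 := fun h => by
      rw [sub_eq_zero] at h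
      simp [← h] at hz
    refine (((((hasDerivAt_log_cay hz).const_mul b).cexp).sub_const 1).neg.div_const
      (2 * b)).congr_deriv ?_
    have e : exp (b * log (cay z)) = exp (c * log (cay z)) * ((1 - z) / (1 + z)) := by
      rw [hb, add_mul, one_mul, exp_add, exp_log (ne_zero_of_re_pos (cay_re_pos hz))]
      rfl
    rw [e]
    simp only [hH']
    field_simp
  -- the radii
  set rr : ℕ → ℝ := fun n => 1 - 1 / ((n : ℝ) + 2) with hrr
  have hr0 : ∀ n, 0 ≤ rr n := fun n => by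
    have h2 : (0 : ℝ) < (n : ℝ) + 2 := by positivity
    simp only [hrr, sub_nonneg, div_le_one h2]
    linarith [(Nat.cast_nonneg n : (0 : ℝ) ≤ n)]
  have hr1 : ∀ n, rr n < 1 := fun n => by
    have : (0 : ℝ) < 1 / ((n : ℝ) + 2) := by positivity
    simp only [hrr]
    linarith
  have hrlim : Tendsto rr atTop (𝓝 1) := by
    simpa [hrr] using (tendsto_const_nhds (x := (1 : ℝ))).sub ((tendsto_const_nhds (x := (1 : ℝ))
      ).div_atTop (tendsto_atTop_add_const_right _ (2 : ℝ) tendsto_natCast_atTop_atTop))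
  set φ : ℕ → ℂ → ℂ := fun n => disk a (rr n) with hφ
  have hφmem : ∀ n z, ‖z‖ < 1 → φ n z ∈ ball (0 : ℂ) 1 := fun n z hz =>
    mem_ball_zero_iff.2 (disk_mem ha (hr0 n) (hr1 n) hz)
  have h00 : ‖(0 : ℂ)‖ < 1 := by simp
  set Dn : ℕ → ℂ := fun n => deriv f (φ n 0) * (a * (1 - (rr n : ℂ) ^ 2))
  set h : ℕ → ℂ → ℂ := fun n z => (f (φ n z) - f (φ n 0)) / Dn n with hhdef
  set P : ℕ → ℂ → ℂ := fun n => blowDeriv g ν ρ a (rr n) with hPdef
  have hblow := fun n (z : ℂ) (hz : ‖z‖ < 1) =>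
    hasDerivAt_blow hf hν hρ hf' ha (hr0 n) (hr1 n) (D := Dn n) rfl hz
  have hDn0 : ∀ n, Dn n ≠ 0 := fun n => (hblow n 0 h00).1
  have hhd : ∀ n, ∀ z ∈ ball (0 : ℂ) 1, HasDerivAt (h n) (P n z) z := fun n z hz =>
    (hblow n z (mem_ball_zero_iff.1 hz)).2
  -- radius containing both points, and the uniform bound there
  obtain ⟨R, hR₁, hR⟩ := exists_between (max_lt hz₁ hz₂)
  obtain ⟨G, hG⟩ := (isCompact_closedBall (0 : ℂ) 1).exists_bound_of_continuousOn hg
  set MP := Real.exp (2 * G + (Real.log ((1 + R) / (1 - R)) + Real.pi) * ∫ w, ‖ρ w‖ ∂ν)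
    / (1 - R) ^ 2
  have hPbd : ∀ n, ∀ z ∈ closedBall (0 : ℂ) R, ‖P n z‖ ≤ MP := fun n z hz =>
    norm_blowDeriv_le hν hρ hG ha (hr0 n) (hr1 n) hR (mem_closedBall_zero_iff.1 hz)
  have hPlim : ∀ z ∈ closedBall (0 : ℂ) R, Tendsto (fun n => P n z) atTop (𝓝 (H' z)) := fun z hz =>
    tendsto_blowDeriv hν hρ hg ha hr0 hr1 hrlim ((mem_closedBall_zero_iff.1 hz).trans_lt hR)
  -- uniform convergence
  have hHc : ContinuousOn H' (closedBall (0 : ℂ) R) := fun z hz => by
    have hz' := (mem_closedBall_zero_iff.1 hz).trans_lt hR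
    refine ContinuousAt.continuousWithinAt ?_
    exact (((continuousAt_const.mul (hasDerivAt_log_cay hz').continuousAt)).cexp).div
      ((continuousAt_const.add continuousAt_id).pow 2)
      (pow_ne_zero 2 (ne_zero_of_re_pos (one_add_re_pos hz')))
  obtain ⟨MH, hMH⟩ := (isCompact_closedBall (0 : ℂ) R).exists_bound_of_continuousOn hHc
  have hH0 : H 0 = 0 := by simp [hH, cay]
  have hunif : ∀ ε > 0, ∀ᶠ n in atTop, ∀ z ∈ closedBall (0 : ℂ) R, ‖h n z - H z‖ ≤ ε :=
    fun ε hε => small_of_deriv (E := fun n z => h n z - H z) (P := fun n z => P n z - H' z)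
      (M := MP + MH) (fun n z hz => (hhd n z hz).sub (hHd z (mem_ball_zero_iff.1 hz)))
      (fun n => by simp [hhdef, hH0]) hR
      (fun n z hz => (norm_sub_le _ _).trans (add_le_add (hPbd n z hz) (hMH z hz)))
      (fun z hz => by simpa using (hPlim z hz).sub_const (H' z)) hε
  -- a small circle around the second point
  have hH12 : H z₁ = 1 / b ∧ H z₂ = 1 / b := by
    simp only [hH, he₁, he₂]
    constructor <;> field_simp <;> ring
  have hH'0 : H' z₂ ≠ 0 := div_ne_zero (exp_ne_zero _)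
    (pow_ne_zero 2 (ne_zero_of_re_pos (one_add_re_pos hz₂)))
  obtain ⟨δ₀, hδ₀, hiso⟩ := Metric.mem_nhdsWithin_iff.1 ((hHd z₂ hz₂).eventually_ne hH'0 (c := 1 / b))
  have hdist : 0 < dist z₁ z₂ := dist_pos.2 hne
  have hz₂R : 0 < R - ‖z₂‖ := by linarith [le_max_right ‖z₁‖ ‖z₂‖]
  obtain ⟨δ, hδ, hδlt⟩ := exists_between (lt_min hδ₀ (lt_min hdist hz₂R))
  have hsubR : closedBall z₂ δ ⊆ closedBall (0 : ℂ) R := closedBall_subset_closedBall' (by
    have := hδlt.trans_le ((min_le_right _ _).trans (min_le_right _ _))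
    rw [dist_zero_right]
    linarith)
  have hHcs : ContinuousOn (fun z => ‖H z - 1 / b‖) (sphere z₂ δ) := fun z hz => by
    have hz' := (mem_closedBall_zero_iff.1 (hsubR (sphere_subset_closedBall hz))).trans_lt hR
    exact (((hHd z hz').continuousAt.sub continuousAt_const).norm).continuousWithinAt
  obtain ⟨zm, hzm, hmin⟩ := (isCompact_sphere z₂ δ).exists_isMinOn
    (NormedSpace.sphere_nonempty.2 hδ.le) hHcs
  have hε : 0 < ‖H zm - 1 / b‖ := norm_pos_iff.2 (sub_ne_zero.2 (hiso ⟨mem_ball.2 (by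
    rw [mem_sphere.1 hzm]; exact hδlt.trans_le (min_le_left _ _)), fun h => by
      rw [Set.mem_singleton_iff.1 h, mem_sphere, dist_self] at hzm
      exact hδ.ne hzm⟩))
  set ε := ‖H zm - 1 / b‖
  obtain ⟨n, hn⟩ := (hunif (ε / 8) (by positivity)).exists
  have hz₁R : z₁ ∈ closedBall (0 : ℂ) R :=
    mem_closedBall_zero_iff.2 ((le_max_left _ _).trans hR₁.le)
  have hz₂R' : z₂ ∈ closedBall (0 : ℂ) R := hsubR (mem_closedBall_self hδ.le)
  have hsub1 : closedBall z₂ δ ⊆ ball (0 : ℂ) 1 :=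
    hsubR.trans (closedBall_subset_ball hR)
  have hdc : DiffContOnCl ℂ (h n) (ball z₂ δ) :=
    (DifferentiableOn.diffContOnCl (by
      rw [closure_ball z₂ hδ.ne']
      exact fun z hz => (hhd n z (hsub1 hz)).differentiableAt.differentiableWithinAt))
  have b1 : ‖h n z₁ - 1 / b‖ ≤ ε / 8 := hH12.1 ▸ hn z₁ hz₁R
  have b2 : ‖h n z₂ - 1 / b‖ ≤ ε / 8 := hH12.2 ▸ hn z₂ hz₂R'
  have hlow : ∀ z ∈ sphere z₂ δ, ε * (3 / 4) ≤ ‖h n z - h n z₂‖ := fun z hz => by
    have h1 := hn z (hsubR (sphere_subset_closedBall hz))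
    have h2 : ε ≤ ‖H z - 1 / b‖ := hmin hz
    have h3 := norm_sub_le_norm_sub_add_norm_sub (H z) (h n z) (1 / b)
    have h4 := norm_sub_le_norm_sub_add_norm_sub (h n z) (h n z₂) (1 / b)
    rw [norm_sub_rev (h n z) (H z)] at h1
    linarith
  have hfreq : ∃ᶠ z in 𝓝 z₂, h n z ≠ h n z₂ := by
    have hP0 : P n z₂ ≠ 0 := div_ne_zero (exp_ne_zero _) (pow_ne_zero 2
      (ne_zero_of_re_pos (den_re_pos (hr0 n) (hr1 n) hz₂)))
    exact (((hhd n z₂ (mem_ball_zero_iff.2 hz₂)).eventually_ne hP0).frequently).filter_mono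
      nhdsWithin_le_nhds
  obtain ⟨u, hu, hu'⟩ := hdc.ball_subset_image_closedBall hδ hlow hfreq
    (mem_ball_iff_norm.2 (show ‖h n z₁ - h n z₂‖ < ε * (3 / 4) / 2 by
      have := norm_sub_le_norm_sub_add_norm_sub (h n z₁) (1 / b) (h n z₂)
      rw [norm_sub_rev (1 / b)] at this
      linarith))
  have hu1 : ‖u‖ < 1 := mem_ball_zero_iff.1 (hsub1 hu)
  simp only [hhdef, div_left_inj' (hDn0 n), sub_left_inj] at hu'
  have := disk_inj ha (hr0 n) (hr1 n) hu1 hz₁ (hinj (hφmem n u hu1) (hφmem n z₁ hz₁) hu')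
  rw [this, mem_closedBall] at hu
  linarith [hδlt.trans_le ((min_le_right _ _).trans (min_le_left _ _))]

end Vale.Agent.P142.Cauchy
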