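import Mathlib

/-!
P142: the logarithmic kernel of the circle and the automorphisms of the disc which fix a point of
the circle.
-/

open Complex MeasureTheory Metric
open scoped ComplexConjugate

namespace Vale.Agent.P142.Cauchy

/-- The automorphism of the disc moving the origin to `r a`, with boundary fixed point `a`. -/
noncomputable def disk (a : ℂ) (r : ℝ) (z : ℂ) : ℂ := a * (z + r) / (1 + r * z)

variable {a w z : ℂ} {r R : ℝ}

theorem mul_conj_one (hw : ‖w‖ = 1) : w * conj w = 1 := by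
  rw [Complex.mul_conj', hw]
  norm_num

theorem one_sub_re_pos (hw : ‖w‖ = 1) (hz : ‖z‖ < 1) : 0 < (1 - z * conj w).re := by
  have h := re_le_norm (z * conj w)
  rw [norm_mul, Complex.norm_conj, hw, mul_one] at h
  rw [sub_re, one_re]
  linarith

theorem norm_one_sub (hw : ‖w‖ = 1) (z : ℂ) : ‖1 - z * conj w‖ = ‖z - w‖ := by
  rw [← mul_conj_one hw, ← sub_mul, norm_mul, Complex.norm_conj, hw, mul_one, norm_sub_rev]

theorem slit_of_re_pos {x : ℂ} (hx : 0 < x.re) : x ∈ slitPlane :=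
  mem_slitPlane_iff.2 (Or.inl hx)

/-- Differences of logarithms in the right half plane. -/
theorem norm_log_sub_log {x y : ℂ} (hx : 0 < x.re) (hy : 0 < y.re) :
    ‖log x - log y‖ ≤ |Real.log (‖x‖ / ‖y‖)| + Real.pi := by
  have hx0 := ne_zero_of_re_pos hx
  have hy0 := ne_zero_of_re_pos hy
  refine (norm_le_abs_re_add_abs_im _).trans (add_le_add (le_of_eq ?_) ?_)
  · rw [sub_re, log_re, log_re,
      Real.log_div (norm_ne_zero_iff.2 hx0) (norm_ne_zero_iff.2 hy0)]
  · rw [sub_im, log_im, log_im]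
    have h1 := abs_arg_le_pi_div_two_iff.2 hx.le
    have h2 := abs_arg_le_pi_div_two_iff.2 hy.le
    exact (abs_sub _ _).trans (by linarith)

theorem den_re_pos (hr : 0 ≤ r) (hr1 : r < 1) (hz : ‖z‖ < 1) : 0 < (1 + (r : ℂ) * z).re := by
  have h := neg_le_of_abs_le (abs_re_le_norm ((r : ℂ) * z))
  rw [norm_mul, norm_real, Real.norm_of_nonneg hr] at h
  rw [add_re, one_re]
  nlinarith [norm_nonneg z]

theorem disk_mem (ha : ‖a‖ = 1) (hr : 0 ≤ r) (hr1 : r < 1) (hz : ‖z‖ < 1) :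
    ‖disk a r z‖ < 1 := by
  have hd : (1 + (r : ℂ) * z) ≠ 0 := ne_zero_of_re_pos (den_re_pos hr hr1 hz)
  rw [disk, norm_div, norm_mul, ha, one_mul, div_lt_one (norm_pos_iff.2 hd)]
  refine (pow_lt_pow_iff_left₀ (norm_nonneg _) (norm_nonneg _) two_ne_zero).1 ?_
  have h2 : ‖z‖ ^ 2 < 1 := by nlinarith [norm_nonneg z]
  rw [Complex.sq_norm, normSq_apply] at h2
  simp only [Complex.sq_norm, normSq_apply, add_re, add_im, mul_re, mul_im, ofReal_re,
    ofReal_im, one_re, one_im]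
  have : 0 < (1 - r ^ 2) * (1 - (z.re * z.re + z.im * z.im)) :=
    mul_pos (by nlinarith) (by linarith)
  nlinarith

theorem disk_zero (a : ℂ) (r : ℝ) : disk a r 0 = a * r := by simp [disk]

theorem hasDerivAt_disk (a : ℂ) (hr : 0 ≤ r) (hr1 : r < 1) (hz : ‖z‖ < 1) :
    HasDerivAt (disk a r) (a * (1 - (r : ℂ) ^ 2) / (1 + r * z) ^ 2) z := by
  have hd : (1 + (r : ℂ) * z) ≠ 0 := ne_zero_of_re_pos (den_re_pos hr hr1 hz)
  refine ((((hasDerivAt_id z).add_const (r : ℂ)).const_mul a).div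
    (((hasDerivAt_id z).const_mul (r : ℂ)).const_add 1) hd).congr_deriv ?_
  simp only [id_eq]
  ring

theorem disk_inj (ha : ‖a‖ = 1) (hr : 0 ≤ r) (hr1 : r < 1) {u : ℂ} (hz : ‖z‖ < 1) (hu : ‖u‖ < 1)
    (h : disk a r z = disk a r u) : z = u := by
  have ha0 : a ≠ 0 := fun h => by simp [h] at ha
  rw [disk, disk, div_eq_div_iff (ne_zero_of_re_pos (den_re_pos hr hr1 hz))
    (ne_zero_of_re_pos (den_re_pos hr hr1 hu))] at h
  have h1 : ((1 : ℂ) - (r : ℂ) ^ 2) * a * (z - u) = 0 := by linear_combination h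
  have hr2 : (1 : ℂ) - (r : ℂ) ^ 2 ≠ 0 := by
    rw [← ofReal_pow, ← ofReal_one, ← ofReal_sub, ofReal_ne_zero]
    nlinarith
  simpa [hr2, ha0, sub_eq_zero] using h1

/-- The kernel seen from the moving origin is bounded on compact parts of the disc. -/
theorem norm_log_disk (ha : ‖a‖ = 1) (hw : ‖w‖ = 1) (hr : 0 ≤ r) (hr1 : r < 1) (hR : R < 1)
    (hz : ‖z‖ ≤ R) :
    ‖log (1 - disk a r z * conj w) - log (1 - disk a r 0 * conj w)‖
      ≤ Real.log ((1 + R) / (1 - R)) + Real.pi := by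
  have hz1 : ‖z‖ < 1 := hz.trans_lt hR
  have hR0 : 0 ≤ R := (norm_nonneg z).trans hz
  have h0 : ‖(0 : ℂ)‖ < 1 := by simp
  have hy := one_sub_re_pos hw (disk_mem ha hr hr1 h0)
  refine (norm_log_sub_log (one_sub_re_pos hw (disk_mem ha hr hr1 hz1)) hy).trans
    (add_le_add ?_ le_rfl)
  set u := a * conj w with hu
  have hu1 : ‖u‖ = 1 := by rw [hu, norm_mul, Complex.norm_conj, hw, ha, mul_one]
  set y := (1 : ℂ) - r * u with hydef
  have ey : 1 - disk a r 0 * conj w = y := by rw [disk_zero, hydef, hu]; ring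
  rw [ey] at hy ⊢
  have hd : (1 + (r : ℂ) * z) ≠ 0 := ne_zero_of_re_pos (den_re_pos hr hr1 hz1)
  have ex : 1 - disk a r z * conj w = (y + z * ((r : ℂ) - u)) / (1 + r * z) := by
    rw [disk, hydef, hu, eq_div_iff hd, sub_mul, div_mul_eq_mul_div, div_mul_cancel₀ _ hd]
    ring
  have esym : ‖(r : ℂ) - u‖ = ‖y‖ := by
    have h := Complex.norm_conj y
    rw [hydef, map_sub, map_one, map_mul, conj_ofReal] at h
    calc ‖(r : ℂ) - u‖ = ‖-(u * (1 - r * conj u))‖ := by
          congr 1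
          linear_combination (-(r : ℂ)) * mul_conj_one hu1
      _ = ‖y‖ := by rw [norm_neg, norm_mul, hu1, one_mul, h]
  have hy0 : 0 < ‖y‖ := norm_pos_iff.2 (ne_zero_of_re_pos hy)
  have hrz : ‖(r : ℂ) * z‖ ≤ R := by
    rw [norm_mul, norm_real, Real.norm_of_nonneg hr]
    nlinarith [norm_nonneg z]
  have d1 : 1 - R ≤ ‖1 + (r : ℂ) * z‖ := by
    have := norm_le_norm_add_norm_sub' (1 : ℂ) (1 + (r : ℂ) * z)
    rw [norm_one, show (1 : ℂ) - (1 + (r : ℂ) * z) = -((r : ℂ) * z) by ring, norm_neg] at this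
    linarith
  have d2 : ‖1 + (r : ℂ) * z‖ ≤ 1 + R := (norm_add_le _ _).trans (by rw [norm_one]; linarith)
  have hzy : ‖z * ((r : ℂ) - u)‖ ≤ R * ‖y‖ := by
    rw [norm_mul, esym]
    exact mul_le_mul_of_nonneg_right hz hy0.le
  have n1 : (1 - R) * ‖y‖ ≤ ‖y + z * ((r : ℂ) - u)‖ := by
    have := norm_sub_le_norm_add y (z * ((r : ℂ) - u))
    linarith
  have n2 : ‖y + z * ((r : ℂ) - u)‖ ≤ (1 + R) * ‖y‖ := (norm_add_le _ _).trans (by linarith)
  have hnum : 0 < ‖y + z * ((r : ℂ) - u)‖ := lt_of_lt_of_le (mul_pos (by linarith) hy0) n1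
  have hden : 0 < ‖1 + (r : ℂ) * z‖ := by linarith
  rw [ex, norm_div, div_div, abs_le]
  constructor
  · rw [← Real.log_inv, inv_div]
    refine Real.log_le_log (div_pos (by linarith) (by linarith)) ?_
    rw [div_le_div_iff₀ (by linarith) (mul_pos hden hy0)]
    nlinarith [mul_le_mul_of_nonneg_right d2 (mul_nonneg (by linarith : (0 : ℝ) ≤ 1 - R) hy0.le)]
  · refine Real.log_le_log (div_pos hnum (mul_pos hden hy0)) ?_
    rw [div_le_div_iff₀ (mul_pos hden hy0) (by linarith)]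
    nlinarith [mul_le_mul_of_nonneg_right d1 (mul_nonneg (by linarith : (0 : ℝ) ≤ 1 + R) hy0.le)]

/-- A weight times the kernel is integrable at points of the disc. -/
theorem integrable_kernel {ν : Measure ℂ} (hν : ∀ᵐ w ∂ν, ‖w‖ = 1) {ρ : ℂ → ℂ}
    (hρ : Integrable ρ ν) (hz : ‖z‖ < 1) :
    Integrable (fun w => ρ w * log (1 - z * conj w)) ν := by
  have hm : AEStronglyMeasurable (fun w : ℂ => log (1 - z * conj w)) ν :=
    (measurable_log.comp (Continuous.measurable (by fun_prop))).aestronglyMeasurable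
  refine (hρ.norm.mul_const (|Real.log (1 - ‖z‖)| + Real.log 2 + Real.pi)).mono'
    (hρ.aestronglyMeasurable.mul hm) ?_
  filter_upwards [hν] with w hw
  rw [norm_mul]
  refine mul_le_mul_of_nonneg_left ?_ (norm_nonneg _)
  have h := norm_log_sub_log (one_sub_re_pos hw hz) (y := 1) (by simp)
  rw [log_one, sub_zero, norm_one, div_one, norm_one_sub hw] at h
  refine h.trans (add_le_add ?_ le_rfl)
  have hl : 1 - ‖z‖ ≤ ‖z - w‖ := by
    have := norm_sub_norm_le w z
    rw [hw, norm_sub_rev] at this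
    exact this
  have hu : ‖z - w‖ ≤ 2 := (norm_sub_le _ _).trans (by rw [hw]; linarith)
  have h1 := Real.log_le_log (by linarith) hl
  have h2 := Real.log_le_log (by linarith : 0 < ‖z - w‖) hu
  have h3 : 0 ≤ Real.log 2 := Real.log_nonneg one_le_two
  rw [abs_le]
  exact ⟨by linarith [neg_abs_le (Real.log (1 - ‖z‖))],
    by linarith [abs_nonneg (Real.log (1 - ‖z‖))]⟩

end Vale.Agent.P142.Cauchy
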